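import Vale.Agent.P192.Bottleneck.Main

namespace Vale.Agent.Results.P192.Bottleneck

/-- Finitely presented periodic groups have no bottlenecks. -/
theorem result :
    (∀ (G : Type) [Group G], Group.IsFinitelyPresented G → IsMulTorsion G →
      ∀ S : Finset G, Subgroup.closure (S : Set G) = ⊤ → ∀ w : ℕ, ∃ N : ℕ,
        ∀ (X : Type) [MulAction G X] [MulAction.IsPretransitive G X] (F : ℕ → Set X),
          (F 0).Nonempty →
          (∀ n ≤ N, {x | x ∈ F n ∧ ∃ s ∈ S, s • x ∉ F n ∨ s⁻¹ • x ∉ F n}.Finite ∧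
            {x | x ∈ F n ∧ ∃ s ∈ S, s • x ∉ F n ∨ s⁻¹ • x ∉ F n}.ncard ≤ w) →
          (∀ n < N, ∀ x ∈ F n, x ∈ F (n + 1) ∧
            ∀ s ∈ S, s • x ∈ F (n + 1) ∧ s⁻¹ • x ∈ F (n + 1)) →
          F N = Set.univ) ∧
    (∀ (G : Type) [Group G], Group.IsFinitelyPresented G → IsMulTorsion G →
      ∀ (X : Type) [MulAction G X] [MulAction.IsPretransitive G X] [Infinite X] (S : Finset G),
        Subgroup.closure (S : Set G) = ⊤ → ∀ w : ℕ, ∃ B : Set X, B.Finite ∧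
          ∀ F : Set X, F.Finite → B ⊆ F →
            w < {x | x ∈ F ∧ ∃ s ∈ S, s • x ∉ F ∨ s⁻¹ • x ∉ F}.ncard) ∧
    (∀ (G : Type) [Group G], Group.IsFinitelyPresented G → IsMulTorsion G →
      ∀ φ : G →* Equiv.Perm ℤ, (∀ g, ∃ C : ℕ, ∀ x : ℤ, |φ g x - x| ≤ C) → Finite φ.range) :=
  ⟨fun _ _ h ht _ hS w =>
      haveI := h
      Vale.Agent.P192.Bottleneck.no_nest ht hS w,
    fun _ _ h ht _ _ _ _ _ hS w =>
      haveI := h
      Vale.Agent.P192.Bottleneck.no_bottleneck ht hS w,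
    fun _ _ h ht φ hφ =>
      haveI := h
      Vale.Agent.P192.Bottleneck.finite_range ht φ hφ⟩

end Vale.Agent.Results.P192.Bottleneck
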