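import Vale.Agent.P192.Treewidth.Automata

namespace Vale.Agent.Results.P192.BoundedAutomata

open Vale.Agent.P192.Treewidth in
/-- Finitely presented periodic groups: finite Schreier graphs of bounded treewidth, and bounded
automorphisms of rooted trees. -/
theorem result :
    (∀ (G : Type) [Group G], Group.IsFinitelyPresented G → IsMulTorsion G →
      ∀ S : Finset G, Subgroup.closure (S : Set G) = ⊤ → ∀ w : ℕ, ∃ M : ℕ,
        ∀ (X : Type) [MulAction G X] [MulAction.IsPretransitive G X] [Finite X],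
          (∀ W : Finset X, ∃ Z : Finset X, Z.card ≤ w ∧ ∀ y : X, y ∉ Z →
            ∀ A : Finset X, A ⊆ W →
              (∀ z ∈ A, Relation.ReflTransGen
                (fun a b => a ∉ Z ∧ b ∉ Z ∧ ∃ s ∈ S, s • a = b ∨ s⁻¹ • a = b) y z) →
              2 * A.card ≤ W.card) →
          Nat.card X ≤ M) ∧
    (∀ (G : Type) [Group G], Group.IsFinitelyPresented G → IsMulTorsion G →
      ∀ (d : ℕ) (φ : G →* Equiv.Perm (List (Fin d))), (∀ g v, (φ g v).length = v.length) →
        (∀ g, ∃ C, ∀ n,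
          {v : List (Fin d) | v.length = n ∧ (fun u => (φ g (v ++ u)).drop v.length) ≠ id}.ncard
            ≤ C) →
        Finite φ.range) := by
  classical
  refine ⟨fun G _ hfp ht S hS w => ?_, fun G _ hfp ht d φ hlen hb => ?_⟩
  · set T : Finset G := S ∪ S.image (·⁻¹) with hTdef
    have hmem : ∀ t, t ∈ T ↔ t ∈ S ∨ t⁻¹ ∈ S := fun t => by
      simp only [hTdef, Finset.mem_union, Finset.mem_image]
      exact or_congr_right ⟨fun ⟨a, ha, e⟩ => by rw [← e, inv_inv]; exact ha,
        fun h => ⟨t⁻¹, h, inv_inv t⟩⟩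
    have hT : ∀ s ∈ T, s⁻¹ ∈ T := fun s hs => by
      rw [hmem] at hs ⊢
      rw [inv_inv]
      exact hs.symm
    have hgen : Subgroup.closure (T : Set G) = ⊤ :=
      eq_top_iff.mpr (hS ▸ Subgroup.closure_mono fun s hs => (hmem s).mpr (Or.inl hs))
    haveI := hfp
    obtain ⟨M, hM⟩ := bounded_size.{0} ht hT hgen w
    refine ⟨M, fun X _ _ _ hsep => hM X fun W => ?_⟩
    obtain ⟨Z, hZ, h⟩ := hsep W
    refine ⟨Z, hZ, fun y hy A hA hr => h y hy A hA fun z hz =>
      Relation.ReflTransGen.mono (fun a b hab => ?_) _ _ (hr z hz)⟩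
    obtain ⟨ha, hb, s, hs, e⟩ := hab
    rcases (hmem s).mp hs with h' | h'
    · exact ⟨ha, hb, s, h', Or.inl e⟩
    · exact ⟨ha, hb, s⁻¹, h', Or.inr (by rwa [inv_inv])⟩
  · haveI := hfp
    exact finite_bounded_automata ht φ hlen hb

end Vale.Agent.Results.P192.BoundedAutomata
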