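import Vale.Agent.P192.TreeLike.Main

namespace Vale.Agent.Results.P192.TreeLike

/-- A finitely presented periodic group moving points boundedly over a tree of bounded degree
acts through a finite group. -/
theorem result (G : Type) [Group G] (hfp : Group.IsFinitelyPresented G) (ht : IsMulTorsion G)
    (V : Type) (T : SimpleGraph V) (hT : T.IsTree) (d : ℕ)
    (hd : ∀ v, (T.neighborSet v).Finite ∧ (T.neighborSet v).ncard ≤ d)
    (X : Type) (f : X → V) (M : ℕ) (hf : ∀ v, (f ⁻¹' {v}).Finite ∧ (f ⁻¹' {v}).ncard ≤ M)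
    (φ : G →* Equiv.Perm X) (hφ : ∀ g, ∃ C : ℕ, ∀ x, T.dist (f (φ g x)) (f x) ≤ C) :
    Finite φ.range :=
  haveI := hfp
  Vale.Agent.P192.TreeLike.finite_range ht hT hd φ f hf hφ

end Vale.Agent.Results.P192.TreeLike
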