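import Mathlib
import Vale.Agent.P192.Embed

namespace Vale.Agent.Results.P192.TwoGenPerfect

/-- Reduction of the finitely presented Burnside problem to two-generated perfect groups. -/
theorem result :
    (∀ (G : Type) [Group G], Group.IsFinitelyPresented G → IsMulTorsion G →
      ∃ (L : Type) (_ : Group L), Group.IsFinitelyPresented L ∧ IsMulTorsion L ∧
        commutator L = ⊤ ∧ (∃ a b : L, Subgroup.closure {a, b} = ⊤) ∧
        (Monoid.ExponentExists G → Monoid.ExponentExists L) ∧
        ∃ f : G →* L, Function.Injective f) ∧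
    ((∀ (G : Type) [Group G], Group.IsFinitelyPresented G → IsMulTorsion G → Finite G) ↔
      (∀ (G : Type) [Group G], Group.IsFinitelyPresented G → IsMulTorsion G →
        commutator G = ⊤ → (∃ a b : G, Subgroup.closure {a, b} = ⊤) → Finite G)) := by
  refine ⟨fun G _ hfp ht => Vale.Agent.P192.embed ht, fun h G _ hfp ht _ _ => h G hfp ht, ?_⟩
  intro h G _ hfp ht
  obtain ⟨L, iL, hLfp, hLt, hperf, hgen, -, f, hf⟩ := Vale.Agent.P192.embed ht
  have : Finite L := h L hLfp hLt hperf hgen
  exact Finite.of_injective f hf

end Vale.Agent.Results.P192.TwoGenPerfect
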